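import Vale.Agent.P368.Main

/-!
Entangling depth two: the parity correlation is exponentially small in `n`,
with no restriction on the number of ancillas or gates.
-/

namespace Vale.Agent.Results.P368.DepthTwoExp

open Vale.Agent.P368

/-- For every circuit with at most two entangling layers on `n` input qubits and any number `a`
of ancillas, the parity correlation is at most `6 * 2 ^ (-n / 4)` in absolute value. -/
theorem result (n a : ℕ) (C : DepthTwoCircuit n a) :
    |C.parityCorrelation| ≤ 6 * (1 / 2 : ℝ) ^ ((n : ℝ) / 4) :=
  C.parityCorrelation_bound

end Vale.Agent.Results.P368.DepthTwoExp
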